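import Vale.Agent.P073.LOC560.Out

/-!
# P073, block LOC: the energies of `f` at a good origin
-/

namespace Vale.Agent.P073.LOC560

open MeasureTheory Set Filter Topology Metric Vale.Agent.P073.St
open Vale.Agent.P073.SQ (ev cube)
open Vale.Agent.P073.AB (cl Idx pt edge eInt tiles EdgeOf RatGood)
open Vale.Agent.P073.HB (obox edgeSum vx)
open Vale.Agent.P073.PK
open Vale.Agent.P073.LOC
open scoped ContDiff ENNReal

variable {p : ℝ} {δ : ℝ≥0∞} {n m : ℕ} {L : V →L[ℝ] V} {f : V → V} {F : V → Mat} {v : V}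

theorem eInt_const (v : V) (e : Idx × Fin 3) (c : ℝ≥0∞) :
    eInt v e (fun _ => c) = ENNReal.ofReal (1 / 2 ^ e.1.1) * c := by
  rw [eInt, setLIntegral_const, Real.volume_Icc]
  simp

/-- one edge of generation `≤ m` -/
theorem Org.dv_le (h : Org p δ n m L f F v) {e : Idx × Fin 3} (hl : e.1.1 ≤ m) :
    eInt v e (dv p L F) ≤ δ := by
  refine le_trans ?_ (h.edges e.1.1 hl)
  exact ENNReal.le_tsum (f := fun q : (Fin 3 → ℤ) × Fin 3 =>
    eInt v ((e.1.1, q.1), q.2) (dv p L F)) (e.1.2, e.2)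

theorem Org.edge_le (h : Org p δ n m L f F v) {e : Idx × Fin 3} (hl : e.1.1 ≤ m)
    (he : edge v e ⊆ Q1) (j : Fin 3) :
    eInt v e (fun x => ENNReal.ofReal (‖cl (F x) (ev j) - L (ev j)‖ ^ p)) ≤ δ :=
  (eInt_mono fun x hx => le_dv (he hx) j).trans (h.dv_le hl)

/-- the triangle inequality -/
theorem pow_le (hp : 1 ≤ p) (a b : V) : ENNReal.ofReal (‖a‖ ^ p) ≤
    2 ^ (p - 1) * (ENNReal.ofReal (‖b‖ ^ p) + ENNReal.ofReal (‖a - b‖ ^ p)) := by
  have hp0 : 0 ≤ p := by linarith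
  rw [← ENNReal.ofReal_rpow_of_nonneg (norm_nonneg _) hp0,
    ← ENNReal.ofReal_rpow_of_nonneg (norm_nonneg _) hp0,
    ← ENNReal.ofReal_rpow_of_nonneg (norm_nonneg _) hp0]
  refine le_trans ?_ (ENNReal.rpow_add_le_mul_rpow_add_rpow _ _ hp)
  refine ENNReal.rpow_le_rpow ?_ hp0
  rw [← ENNReal.ofReal_add (norm_nonneg _) (norm_nonneg _)]
  refine ENNReal.ofReal_le_ofReal ?_
  have : a = b + (a - b) := by abel
  calc ‖a‖ = ‖b + (a - b)‖ := by rw [← this]
    _ ≤ _ := norm_add_le _ _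

theorem eInt_pow_le (hp : 1 ≤ p) {e : Idx × Fin 3} (he : edge v e ⊆ Q1) :
    eInt v e (fun x => ENNReal.ofReal (‖cl (F x) (ev e.2)‖ ^ p)) ≤
      2 ^ (p - 1) * (ENNReal.ofReal (1 / 2 ^ e.1.1) * ENNReal.ofReal (‖L (ev e.2)‖ ^ p) +
        eInt v e (dv p L F)) := by
  have hc : (2 : ℝ≥0∞) ^ (p - 1) ≠ ⊤ := ENNReal.rpow_ne_top_of_nonneg (by linarith) (by norm_num)
  have h1 : eInt v e (fun x => ENNReal.ofReal (‖cl (F x) (ev e.2)‖ ^ p)) ≤
      eInt v e (fun x => 2 ^ (p - 1) * (ENNReal.ofReal (‖L (ev e.2)‖ ^ p) + dv p L F x)) :=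
    eInt_mono fun x hx => (pow_le hp _ (L (ev e.2))).trans
      (mul_le_mul' le_rfl (add_le_add le_rfl (le_dv (he hx) e.2)))
  refine h1.trans (le_of_eq ?_)
  have h2 : eInt v e (fun x => 2 ^ (p - 1) * (ENNReal.ofReal (‖L (ev e.2)‖ ^ p) + dv p L F x)) =
      2 ^ (p - 1) * (eInt v e (fun _ => ENNReal.ofReal (‖L (ev e.2)‖ ^ p)) +
        eInt v e (dv p L F)) := by
    simp only [eInt]
    rw [lintegral_const_mul' _ _ hc, lintegral_add_left measurable_const]
    ring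
  rw [h2, eInt_const]

/-- the energy of an edge of generation `≤ m` -/
theorem Org.energy_le (h : Org p δ n m L f F v) (hp : 1 ≤ p) {e : Idx × Fin 3} (hl : e.1.1 ≤ m)
    (he : edge v e ⊆ Q1) :
    eInt v e (fun x => ENNReal.ofReal (‖cl (F x) (ev e.2)‖ ^ p)) ≤
      2 ^ (p - 1) * (ENNReal.ofReal (1 / 2 ^ e.1.1) * ENNReal.ofReal (‖L (ev e.2)‖ ^ p) + δ) :=
  (eInt_pow_le hp he).trans (mul_le_mul' le_rfl (add_le_add le_rfl (h.dv_le hl)))

/-- the energy of an edge of generation `≤ m` in a direction of the kernel -/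
theorem Org.energy_le_of_ker (h : Org p δ n m L f F v) {e : Idx × Fin 3} (hl : e.1.1 ≤ m)
    (he : edge v e ⊆ Q1) (hL : L (ev e.2) = 0) :
    eInt v e (fun x => ENNReal.ofReal (‖cl (F x) (ev e.2)‖ ^ p)) ≤ δ := by
  refine le_trans (le_of_eq ?_) (h.edge_le hl he e.2)
  congr 1
  funext x
  rw [hL, sub_zero]

theorem tile_edge_subset {Ω : Set V} (hΩ : IsOpen Ω) (hb : Bornology.IsBounded Ω) {e : Idx × Fin 3}
    (he : ∃ q ∈ tiles Ω n v, EdgeOf e q) : edge v e ⊆ Ω := by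
  obtain ⟨q, hq, heq⟩ := he
  intro x hx
  by_contra hn
  have h1 : P073.Net.IsTile (AB.rho Ω n) v q.1 q.2 := hq
  have h2 := h1.1 x (edge_sub_of_edgeOf heq hx)
  have h3 := (sizeFn_rho hΩ hb n).off x hn
  have : (0:ℝ) < 1 / 2 ^ q.1 := by positivity
  linarith

/-- **the energy of the edges of the tiling outside of the core** -/
theorem Org.out_le (h : Org p δ n m L f F v) (hp : 1 ≤ p) (hn : 3 ≤ n) :
    ∑' e : OutE n v, ENNReal.ofReal ((1 / 2 ^ e.1.1.1) ^ 2) *
      eInt v e.1 (fun x => ENNReal.ofReal (‖cl (F x) (ev e.1.2)‖ ^ p)) ≤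
      2 ^ (p - 1) * (ENNReal.ofReal (360 / 2 ^ n) * ENNReal.ofReal (‖L‖ ^ p) + δ) := by
  have hL : ∀ j, ENNReal.ofReal (‖L (ev j)‖ ^ p) ≤ ENNReal.ofReal (‖L‖ ^ p) := by
    intro j
    refine ENNReal.ofReal_le_ofReal (Real.rpow_le_rpow (norm_nonneg _) ?_ (by linarith))
    refine (L.le_opNorm _).trans ?_
    have : ‖ev j‖ ≤ 1 := by
      rw [ev, Pi.norm_single]; simp
    exact mul_le_of_le_one_right (norm_nonneg _) this
  calc ∑' e : OutE n v, ENNReal.ofReal ((1 / 2 ^ e.1.1.1) ^ 2) *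
        eInt v e.1 (fun x => ENNReal.ofReal (‖cl (F x) (ev e.1.2)‖ ^ p))
      ≤ ∑' e : OutE n v, 2 ^ (p - 1) * (ENNReal.ofReal (1 / 2 ^ e.1.1.1) ^ 3 *
          ENNReal.ofReal (‖L‖ ^ p) +
          ENNReal.ofReal ((1 / 2 ^ e.1.1.1) ^ 2) * eInt v e.1 (dv p L F)) := by
        refine ENNReal.tsum_le_tsum fun e => ?_
        have h1 := eInt_pow_le (L := L) (F := F) hp
          (tile_edge_subset isOpen_Q1 isBounded_Q1 e.2.1)
        refine (mul_le_mul' le_rfl h1).trans ?_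
        rw [← mul_assoc, mul_comm (ENNReal.ofReal _) ((2 : ℝ≥0∞) ^ (p - 1)), mul_assoc, mul_add]
        refine mul_le_mul' le_rfl (add_le_add ?_ le_rfl)
        rw [← mul_assoc]
        refine mul_le_mul' (le_of_eq ?_) (hL _)
        rw [← ENNReal.ofReal_mul (by positivity), ← ENNReal.ofReal_pow (by positivity)]
        congr 1
    _ = 2 ^ (p - 1) * ((∑' e : OutE n v, ENNReal.ofReal (1 / 2 ^ e.1.1.1) ^ 3) *
          ENNReal.ofReal (‖L‖ ^ p) +
          ∑' e : OutE n v, ENNReal.ofReal ((1 / 2 ^ e.1.1.1) ^ 2) * eInt v e.1 (dv p L F)) := by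
        rw [ENNReal.tsum_mul_left, ENNReal.tsum_add, ENNReal.tsum_mul_right]
    _ ≤ _ := by
        refine mul_le_mul' le_rfl (add_le_add (mul_le_mul' (tsum_out_le hn h.org) le_rfl) ?_)
        refine le_trans ?_ h.tile
        exact ENNReal.tsum_comp_le_tsum_of_injective
          (f := fun e : OutE n v => (⟨e.1, e.2.1⟩ :
            {e : Idx × Fin 3 // ∃ q ∈ tiles Q1 n v, EdgeOf e q}))
          (fun e e' hee => Subtype.ext (congrArg (fun q => q.1) hee))
          (fun e => ENNReal.ofReal ((1 / 2 ^ e.1.1.1) ^ 2) * eInt v e.1 (dv p L F))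

/-! ### Planes -/

theorem lintegral_le_sec (i : Fin 3) (κ : V → ℝ≥0∞) :
    ∫⁻ x, κ x ≤ ∫⁻ c, ∫⁻ u, κ (sec i c u) := by
  have h1 := volume_preserving_piFinSuccAbove (fun _ : Fin 3 => ℝ) i
  have h2 := (h1.symm _).lintegral_comp_emb (MeasurableEquiv.measurableEmbedding _) κ
  rw [← h2, Measure.volume_eq_prod]
  exact lintegral_prod_le _

theorem update_sec (i : Fin 3) (c c' : ℝ) (u : Fin 2 → ℝ) :
    Function.update (sec i c' u) i c = sec i c u := by
  ext j
  rcases Fin.eq_self_or_eq_succAbove i j with rfl | ⟨l, rfl⟩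
  · rw [Function.update_self, sec_same]
  · rw [Function.update_of_ne (Fin.succAbove_ne _ _), sec_succAbove, sec_succAbove]

/-- **the planes** of generation `≤ m` -/
theorem Org.plane_le (h : Org p δ n m L f F v) {l : ℕ} (hl : l ≤ m) (i : Fin 3) (z : ℤ)
    (h1 : v i + 2 / 2 ^ n ≤ v i + z / 2 ^ l) (h2 : v i + z / 2 ^ l ≤ v i + (2 ^ n - 3) / 2 ^ n)
    (j : Fin 3) :
    ∫⁻ x in core v n, ENNReal.ofReal
      (‖cl (F (Function.update x i (v i + z / 2 ^ l))) (ev j) - L (ev j)‖ ^ p) ≤ δ := by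
  set c : ℝ := v i + z / 2 ^ l with hc
  have hpl : ∫⁻ u, dv p L F (sec i c u) ≤ δ := by
    refine le_trans ?_ (h.planes l hl i)
    have e : c = v i + 1 / 2 ^ l * z := by rw [hc]; ring
    rw [e]
    exact ENNReal.le_tsum (f := fun z : ℤ => planeInt (dv p L F) i (1 / 2 ^ l) v z) z
  have hcore : ∀ (c' : ℝ) (u : Fin 2 → ℝ), sec i c' u ∈ core v n → sec i c u ∈ Q1 := by
    intro c' u hu
    apply core_subset h.org
    intro k
    rcases Fin.eq_self_or_eq_succAbove i k with rfl | ⟨l, rfl⟩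
    · rw [sec_same]
      exact ⟨h1, h2⟩
    · have := hu (i.succAbove l)
      rw [sec_succAbove] at this ⊢
      exact this
  rw [← lintegral_indicator (measurableSet_core v n)]
  refine (lintegral_le_sec i _).trans ?_
  have h3 : ∀ c' : ℝ, ∫⁻ u, (core v n).indicator (fun x => ENNReal.ofReal
      (‖cl (F (Function.update x i c)) (ev j) - L (ev j)‖ ^ p)) (sec i c' u) ≤
      (Icc (v i + 2 / 2 ^ n) (v i + (2 ^ n - 3) / 2 ^ n)).indicator (fun _ => δ) c' := by
    intro c'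
    by_cases hc' : c' ∈ Icc (v i + 2 / 2 ^ n) (v i + (2 ^ n - 3) / 2 ^ n)
    · rw [indicator_of_mem hc']
      refine (lintegral_mono fun u => ?_).trans hpl
      by_cases hu : sec i c' u ∈ core v n
      · rw [indicator_of_mem hu, update_sec]
        exact le_dv (hcore c' u hu) j
      · rw [indicator_of_notMem hu]
        exact zero_le
    · rw [indicator_of_notMem hc']
      refine le_of_eq ?_
      rw [← lintegral_zero (μ := (volume : Measure (Fin 2 → ℝ)))]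
      refine lintegral_congr fun u => ?_
      refine indicator_of_notMem (fun hu => hc' ?_) _
      have := hu i
      rwa [sec_same] at this
  refine (lintegral_mono h3).trans ?_
  rw [lintegral_indicator measurableSet_Icc, setLIntegral_const, Real.volume_Icc]
  refine mul_le_of_le_one_right zero_le ?_
  rw [ENNReal.ofReal_le_one]
  have e : v i + ((2:ℝ) ^ n - 3) / 2 ^ n - (v i + 2 / 2 ^ n) = 1 - 5 / 2 ^ n := by
    field_simp
    ring
  rw [e]
  have : (0:ℝ) ≤ 5 / 2 ^ n := by positivity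
  linarith

/-- **the middle planes** -/
theorem Org.mid_le (h : Org p δ n m L f F v) (hnm : n + 1 ≤ m) {z : ℤ} (h1 : 2 ≤ z)
    (h2 : z < 2 ^ n - 3) (j : Fin 3) :
    ∫⁻ x in core v n, ENNReal.ofReal
      (‖cl (F (Function.update x 2 (mid v n z))) (ev j) - L (ev j)‖ ^ p) ≤ δ := by
  have h3 := h.plane_le hnm 2 (2 * z + 1) ?_ ?_ j
  · have e : mid v n z = v 2 + ((2 * z + 1 : ℤ) : ℝ) / 2 ^ (n + 1) := by
      rw [mid]; push_cast; rfl
    rw [e]
    exact h3
  · have : (2:ℝ) ≤ z := by exact_mod_cast h1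
    rw [pow_succ]
    push_cast
    have h5 : (2:ℝ) / 2 ^ n ≤ (2 * z + 1) / (2 ^ n * 2) := by
      rw [div_le_div_iff₀ (by positivity) (by positivity)]
      have : (0:ℝ) < 2 ^ n := by positivity
      nlinarith
    linarith
  · have : (z:ℝ) + 1 ≤ 2 ^ n - 3 := by exact_mod_cast h2
    rw [pow_succ]
    push_cast
    have h5 : (2 * (z:ℝ) + 1) / (2 ^ n * 2) ≤ (2 ^ n - 3) / 2 ^ n := by
      rw [div_le_div_iff₀ (by positivity) (by positivity)]
      have : (0:ℝ) < 2 ^ n := by positivity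
      nlinarith
    linarith

end Vale.Agent.P073.LOC560
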