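import Vale.Agent.P073.LOC560.En

/-!
# P073, block LOC: the choice of the origin, in terms of the deviation from `L`
-/

namespace Vale.Agent.P073.LOC560

open MeasureTheory Set Filter Topology Metric Vale.Agent.P073.St
open Vale.Agent.P073.SQ (ev cube)
open Vale.Agent.P073.AB (cl Idx pt edge eInt tiles EdgeOf RatGood)
open Vale.Agent.P073.PK
open Vale.Agent.P073.LOC (Q1 Near core)
open scoped ContDiff ENNReal

variable {p : ℝ} {δ : ℝ≥0∞} {n m : ℕ} {L : V →L[ℝ] V} {f : V → V} {F : V → Mat} {v : V}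

/-- deviation of `F` from `L` on the edge `e` -/
noncomputable def fInt (p : ℝ) (v : V) (L : V →L[ℝ] V) (F : V → Mat) (e : Idx × Fin 3) : ℝ≥0∞ :=
  eInt v e (fun x => ENNReal.ofReal (‖cl (F x) (ev e.2) - L (ev e.2)‖ ^ p))

/-- a good origin -/
structure ChoiceH (p δ : ℝ) (n m : ℕ) (L : V →L[ℝ] V) (f : V → V) (F : V → Mat) (v : V) :
    Prop where
  org : ∀ i, 0 ≤ v i ∧ v i < 1 / 2 ^ n
  rat : RatGood v Q1 f F
  fin : ∀ e : Idx × Fin 3, edge v e ⊆ Q1 → n ≤ e.1.1 →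
    eInt v e (fun x => ENNReal.ofReal (‖cl (F x) (ev e.2)‖ ^ p)) ≠ ⊤
  fine : ∀ e : Idx × Fin 3, e.1.1 = m → edge v e ⊆ core v n → fInt p v L F e ≤ ENNReal.ofReal δ
  out : ∑' e : {e : Idx × Fin 3 // (∃ q ∈ tiles Q1 n v, EdgeOf e q) ∧ ¬ edge v e ⊆ core v n},
    ENNReal.ofReal ((1 / 2 ^ e.1.1.1) ^ 2) * fInt p v L F e.1 ≤ ENNReal.ofReal δ

/-- (CH) -/
def SpecChoiceH : Prop :=
  ∀ (p : ℝ) (L : V →L[ℝ] V), 1 ≤ p → p < 2 → ∀ n m : ℕ, 3 ≤ n → n ≤ m → ∀ δ > 0, ∃ κ > 0,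
    ∀ (Λ : Set V) (f : V → V) (F : V → Mat), Near p κ L Λ f F → ∃ v, ChoiceH p δ n m L f F v

/-- the deviation on the edges of the tiling outside of the core -/
theorem Org.out_dev_le (h : Org p δ n m L f F v) :
    ∑' e : {e : Idx × Fin 3 // (∃ q ∈ tiles Q1 n v, EdgeOf e q) ∧ ¬ edge v e ⊆ core v n},
      ENNReal.ofReal ((1 / 2 ^ e.1.1.1) ^ 2) * fInt p v L F e.1 ≤ δ := by
  refine le_trans (ENNReal.tsum_le_tsum fun e => mul_le_mul' le_rfl
    (?_ : fInt p v L F e.1 ≤ eInt v e.1 (dv p L F))) ?_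
  · exact eInt_mono fun x hx =>
      le_dv (tile_edge_subset isOpen_Q1 isBounded_Q1 e.2.1 hx) e.1.2
  · refine le_trans ?_ h.tile
    exact ENNReal.tsum_comp_le_tsum_of_injective
      (f := fun e : {e : Idx × Fin 3 // (∃ q ∈ tiles Q1 n v, EdgeOf e q) ∧
          ¬ edge v e ⊆ core v n} => (⟨e.1, e.2.1⟩ :
        {e : Idx × Fin 3 // ∃ q ∈ tiles Q1 n v, EdgeOf e q}))
      (fun e e' hee => Subtype.ext (congrArg (fun q => q.1) hee))
      (fun e => ENNReal.ofReal ((1 / 2 ^ e.1.1.1) ^ 2) * eInt v e.1 (dv p L F))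

/-- **(CH)** the choice of the origin -/
theorem specChoiceH : SpecChoiceH := by
  intro p L hp1 _ n m _ hnm δ hδ
  obtain ⟨κ, hκ, H⟩ := exists_org hp1 L n m (δ := ENNReal.ofReal δ)
    (by rw [Ne, ENNReal.ofReal_eq_zero, not_le]; exact hδ)
  refine ⟨κ, hκ, fun Λ f F hN => ?_⟩
  obtain ⟨v, hv, _, _⟩ := H Λ f F hN (fun _ => 0) (fun _ => True) aemeasurable_const
    (Filter.Eventually.of_forall fun _ => trivial)
  refine ⟨v, hv.org, hv.rat, fun e he _ => hv.fin e he, fun e he1 he2 => ?_, hv.out_dev_le⟩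
  exact hv.edge_le he1.le (he2.trans (core_subset hv.org)) e.2

end Vale.Agent.P073.LOC560
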