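import Vale.Agent.P073.SQ.Spec

/-!
# P073, block LOC, rank two: the extension of a `2`-dimensional linear map by a transversal vector
-/

namespace Vale.Agent.P073.LOC560

open Vale.Agent.P073.St
open Vale.Agent.P073.SQ (ev)

/-- the linear map with the columns `a`, `b`, `c` -/
noncomputable def colL (a b c : V) : V →L[ℝ] V :=
  (ContinuousLinearMap.proj (R := ℝ) (φ := fun _ : Fin 3 => ℝ) 0).smulRight a +
    (ContinuousLinearMap.proj (R := ℝ) (φ := fun _ : Fin 3 => ℝ) 1).smulRight b +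
    (ContinuousLinearMap.proj (R := ℝ) (φ := fun _ : Fin 3 => ℝ) 2).smulRight c

theorem colL_apply (a b c w : V) : colL a b c w = w 0 • a + w 1 • b + w 2 • c := rfl

theorem colL_zero (a b c : V) : colL a b c (ev 0) = a := by
  simp [colL_apply, ev]

theorem colL_one (a b c : V) : colL a b c (ev 1) = b := by
  simp [colL_apply, ev]

theorem colL_two (a b c : V) : colL a b c (ev 2) = c := by
  simp [colL_apply, ev]

theorem decomp (w : V) : w = w 0 • ev 0 + w 1 • ev 1 + w 2 • ev 2 := by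
  ext i
  fin_cases i <;> simp [ev]

theorem apply_eq (L : V →L[ℝ] V) (w : V) :
    L w = w 0 • L (ev 0) + w 1 • L (ev 1) + w 2 • L (ev 2) := by
  conv_lhs => rw [decomp w]
  simp

/-- **the transversal extension** -/
theorem exists_lin2 (L : V →L[ℝ] V) (h2 : L (ev 2) = 0)
    (hi : ∀ s t : ℝ, s • L (ev 0) + t • L (ev 1) = 0 → s = 0 ∧ t = 0) :
    ∃ (θ M η : ℝ) (c : V), 0 < θ ∧ 0 < M ∧ 0 < η ∧ ∀ a b : V,
      ‖a - L (ev 0)‖ ≤ η → ‖b - L (ev 1)‖ ≤ η →
      (∀ w, θ * ‖w‖ ≤ ‖colL a b c w‖) ∧ ∀ w, ‖colL a b c w‖ ≤ M * ‖w‖ := by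
  have hns : ¬ Function.Surjective (L : V →ₗ[ℝ] V) := by
    intro hs
    have hinj := LinearMap.injective_iff_surjective.2 hs
    have h3 : (ev 2 : V) = 0 := hinj (by simpa using h2)
    have := congrFun h3 2
    simp [ev] at this
  obtain ⟨c, hc⟩ : ∃ c : V, ∀ w, L w ≠ c := by
    by_contra hcon
    push Not at hcon
    exact hns hcon
  set B : V →L[ℝ] V := colL (L (ev 0)) (L (ev 1)) c with hB
  have hker : LinearMap.ker (B : V →ₗ[ℝ] V) = ⊥ := by
    rw [LinearMap.ker_eq_bot']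
    intro w hw
    have hw' : w 0 • L (ev 0) + w 1 • L (ev 1) + w 2 • c = 0 := hw
    have hw2 : w 2 = 0 := by
      by_contra hne
      refine hc (-(w 2)⁻¹ • (w 0 • ev 0 + w 1 • ev 1)) ?_
      have h4 : w 0 • L (ev 0) + w 1 • L (ev 1) = -(w 2 • c) := by
        rw [← add_eq_zero_iff_eq_neg]; exact hw'
      rw [map_smul, map_add, map_smul, map_smul, h4, smul_neg, neg_smul, neg_neg, smul_smul,
        inv_mul_cancel₀ hne, one_smul]
    rw [hw2, zero_smul, add_zero] at hw'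
    obtain ⟨h0, h1⟩ := hi _ _ hw'
    ext i
    fin_cases i
    · exact h0
    · exact h1
    · exact hw2
  obtain ⟨K, hK, hKl⟩ := LinearMap.exists_antilipschitzWith (B : V →ₗ[ℝ] V) hker
  have hK0 : (0 : ℝ) < K := hK
  have hlow : ∀ w, (K : ℝ)⁻¹ * ‖w‖ ≤ ‖B w‖ := by
    intro w
    have := hKl.le_mul_dist w 0
    rw [dist_zero_right, map_zero, dist_zero_right] at this
    rw [inv_mul_le_iff₀ hK0]
    exact this
  refine ⟨(K : ℝ)⁻¹ / 2, ‖B‖ + (K : ℝ)⁻¹, (K : ℝ)⁻¹ / 4, c, by positivity, by positivity,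
    by positivity, fun a b ha hb => ?_⟩
  have hdiff : ∀ w, ‖colL a b c w - B w‖ ≤ (K : ℝ)⁻¹ / 2 * ‖w‖ := by
    intro w
    have e : colL a b c w - B w = w 0 • (a - L (ev 0)) + w 1 • (b - L (ev 1)) := by
      rw [hB, colL_apply, colL_apply, smul_sub, smul_sub]; abel
    rw [e]
    refine (norm_add_le _ _).trans ?_
    rw [norm_smul, norm_smul]
    have h5 := norm_le_pi_norm w 0
    have h6 := norm_le_pi_norm w 1
    have h7 := mul_le_mul h5 ha (norm_nonneg _) (norm_nonneg _)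
    have h8 := mul_le_mul h6 hb (norm_nonneg _) (norm_nonneg _)
    linarith
  refine ⟨fun w => ?_, fun w => ?_⟩
  · have h9 := norm_sub_norm_le (B w) (colL a b c w)
    rw [norm_sub_rev] at h9
    linarith [hdiff w, hlow w]
  · have h9 := norm_sub_norm_le (colL a b c w) (B w)
    have h10 := B.le_opNorm w
    have h11 : (0:ℝ) ≤ (K : ℝ)⁻¹ * ‖w‖ := by positivity
    linarith [hdiff w]

end Vale.Agent.P073.LOC560
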