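import Vale.Agent.P073.LOC.Spec752
import Vale.Agent.P073.AB.Part86
import Vale.Agent.P073.SQ.Edge

/-!
# P073, block LOC: the integral over the middle plane of a slab as a sum over fine squares
-/

namespace Vale.Agent.P073.LOC560.Mid

open MeasureTheory Set Filter Topology Metric Vale.Agent.P073.St
open Vale.Agent.P073.SQ (ev cube)
open Vale.Agent.P073.AB (Idx squ)
open Vale.Agent.P073.LOC (core mid)
open scoped ENNReal

/-- the squares of generation `M` of the middle plane of the slab `z` in the core -/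
noncomputable def grid (n M : ℕ) (z : ℤ) : Finset (Fin 3 → ℤ) :=
  Fintype.piFinset (fun i => if i = 2 then {(2 * z + 1) * 2 ^ (M - (n + 1))}
    else Finset.Ico (2 * 2 ^ (M - n)) ((2 ^ n - 3) * 2 ^ (M - n)))

theorem mem_grid {n M : ℕ} {z : ℤ} {u : Fin 3 → ℤ} : u ∈ grid n M z ↔
    u 2 = (2 * z + 1) * 2 ^ (M - (n + 1)) ∧ ∀ i, i ≠ 2 →
      (2 * 2 ^ (M - n) ≤ u i ∧ u i < (2 ^ n - 3) * 2 ^ (M - n)) := by
  unfold grid
  rw [Fintype.mem_piFinset]
  constructor
  · intro h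
    refine ⟨by simpa using h 2, fun i hi => ?_⟩
    have := h i
    rw [if_neg hi, Finset.mem_Ico] at this
    exact this
  · rintro ⟨h1, h2⟩ i
    by_cases hi : i = 2
    · subst hi; simpa using h1
    · rw [if_neg hi, Finset.mem_Ico]; exact h2 i hi

theorem exists_int_between {A B : ℤ} {t : ℝ} (hAB : A < B) (h1 : (A : ℝ) ≤ t) (h2 : t ≤ B) :
    ∃ u : ℤ, A ≤ u ∧ u < B ∧ (u : ℝ) ≤ t ∧ t ≤ u + 1 := by
  rcases lt_or_ge ⌊t⌋ B with h | h
  · exact ⟨⌊t⌋, Int.le_floor.2 h1, h, Int.floor_le t, (Int.lt_floor_add_one t).le⟩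
  · have h3 : (B : ℝ) ≤ t := Int.le_floor.1 h
    refine ⟨B - 1, by omega, by omega, ?_, ?_⟩
    · push_cast; linarith
    · push_cast; linarith

theorem two_pow_split {n M : ℕ} (h : n ≤ M) : (2 : ℝ) ^ M = 2 ^ n * 2 ^ (M - n) := by
  rw [← pow_add]; congr 1; omega

/-- position of a grid value -/
theorem div_lo {n M : ℕ} (h : n ≤ M) {u : ℤ} (hu : 2 * 2 ^ (M - n) ≤ u) :
    (2 : ℝ) / 2 ^ n ≤ u / 2 ^ M := by
  rw [two_pow_split h, div_le_div_iff₀ (by positivity) (by positivity)]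
  have : (2 : ℝ) * 2 ^ (M - n) ≤ u := by exact_mod_cast hu
  have h0 : (0:ℝ) < 2 ^ n := by positivity
  nlinarith

theorem div_hi {n M : ℕ} (h : n ≤ M) {u : ℤ} (hu : u < (2 ^ n - 3) * 2 ^ (M - n)) :
    ((u : ℝ) + 1) / 2 ^ M ≤ (2 ^ n - 3) / 2 ^ n := by
  rw [two_pow_split h, div_le_div_iff₀ (by positivity) (by positivity)]
  have : (u : ℝ) + 1 ≤ (2 ^ n - 3) * 2 ^ (M - n) := by exact_mod_cast hu
  have h0 : (0:ℝ) < 2 ^ n := by positivity
  nlinarith

/-- (4a) the height of the square -/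
theorem height {n M : ℕ} {z : ℤ} (v : V) (hM : n + 1 ≤ M) {u : Fin 3 → ℤ} (hu : u ∈ grid n M z) :
    v 2 + u 2 / 2 ^ M = mid v n z := by
  rw [(mem_grid.1 hu).1, mid]
  congr 1
  rw [two_pow_split hM]
  push_cast
  have h0 : (0:ℝ) < 2 ^ (n + 1) := by positivity
  have h1 : (0:ℝ) < 2 ^ (M - (n + 1)) := by positivity
  field_simp

/-- (4b) -/
theorem sc_two {n M : ℕ} {z : ℤ} (v : V) (hM : n + 1 ≤ M) {u : Fin 3 → ℤ}
    (hu : u ∈ grid n M z) : AB.P86.sc v ((M, u), 2) 2 = mid v n z := by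
  simp only [AB.P86.sc, if_true]
  exact height v hM hu

theorem sc_ne (v : V) (M : ℕ) (u : Fin 3 → ℤ) {l : Fin 3} (hl : l ≠ 2) :
    AB.P86.sc v ((M, u), 2) l = v l + (u l + 1 / 2) / 2 ^ M := by
  simp only [AB.P86.sc, if_neg hl]

/-- (4c) -/
theorem squ_plane {n M : ℕ} {z : ℤ} (v : V) (hM : n + 1 ≤ M) {u : Fin 3 → ℤ}
    (hu : u ∈ grid n M z) {x : V} (hx : x ∈ squ v ((M, u), 2)) : x 2 = mid v n z :=
  hx.1.trans (height v hM hu)

/-- the middle height -/
theorem mid_bounds (v : V) {n : ℕ} {z : ℤ} (h1 : 2 ≤ z) (h2 : z < 2 ^ n - 3) :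
    v 2 + 2 / 2 ^ n ≤ mid v n z ∧ mid v n z ≤ v 2 + (2 ^ n - 3) / 2 ^ n := by
  have h0 : (0:ℝ) < 2 ^ n := by positivity
  rw [mid, pow_succ]
  constructor
  · have : (2:ℝ) ≤ z := by exact_mod_cast h1
    have h5 : (2:ℝ) / 2 ^ n ≤ (2 * z + 1) / (2 ^ n * 2) := by
      rw [div_le_div_iff₀ (by positivity) (by positivity)]
      nlinarith
    linarith
  · have : (z:ℝ) + 1 ≤ 2 ^ n - 3 := by exact_mod_cast h2
    have h5 : (2 * (z:ℝ) + 1) / (2 ^ n * 2) ≤ (2 ^ n - 3) / 2 ^ n := by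
      rw [div_le_div_iff₀ (by positivity) (by positivity)]
      nlinarith
    linarith

/-- (4d) the squares are in the core -/
theorem squ_sub_core {n M : ℕ} {z : ℤ} (v : V) (hM : n + 1 ≤ M) (h1 : 2 ≤ z)
    (h2 : z < 2 ^ n - 3) {u : Fin 3 → ℤ} (hu : u ∈ grid n M z) :
    squ v ((M, u), 2) ⊆ core v n := by
  intro x hx i
  by_cases hi : i = 2
  · subst hi
    rw [squ_plane v hM hu hx]
    exact mid_bounds v h1 h2
  · obtain ⟨h3, h4⟩ := hx.2 i hi
    obtain ⟨h5, h6⟩ := (mem_grid.1 hu).2 i hi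
    have h7 := div_lo (by omega) h5
    have h8 := div_hi (by omega) h6
    simp only at h3 h4
    constructor <;> linarith

/-! ### Counting -/

theorem card_Ico_le (n M : ℕ) (hM : n ≤ M) :
    ((Finset.Ico (2 * 2 ^ (M - n) : ℤ) ((2 ^ n - 3) * 2 ^ (M - n))).card : ℝ) ≤ 2 ^ M := by
  rw [Int.card_Ico]
  have h1 : (((2 ^ n - 3) * 2 ^ (M - n) - 2 * 2 ^ (M - n) : ℤ).toNat : ℤ) ≤ 2 ^ M := by
    have h2 : (2 : ℤ) ^ M = 2 ^ n * 2 ^ (M - n) := by rw [← pow_add]; congr 1; omega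
    have h3 : (0 : ℤ) < 2 ^ (M - n) := by positivity
    rw [Int.toNat_eq_max, h2]
    refine max_le ?_ (by positivity)
    nlinarith
  exact_mod_cast h1

/-- (2) -/
theorem card_grid (n M : ℕ) (z : ℤ) (hM : n ≤ M) : ((grid n M z).card : ℝ) ≤ 4 ^ M := by
  unfold grid
  rw [Fintype.card_piFinset, Fin.prod_univ_three]
  have h := card_Ico_le n M hM
  simp only [show (0 : Fin 3) ≠ 2 by decide, show (1 : Fin 3) ≠ 2 by decide, if_false, if_true,
    Finset.card_singleton, mul_one]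
  push_cast
  calc _ ≤ (2:ℝ) ^ M * 2 ^ M := mul_le_mul h h (by positivity) (by positivity)
    _ = 4 ^ M := by rw [← mul_pow]; norm_num

/-- (3) -/
theorem card_filter (n m M : ℕ) (z : ℤ) (hm : n ≤ m) (hM : m ≤ M) :
    (((grid n M z).filter (fun u => (2 ^ (M - m) : ℤ) ∣ u 1 ∨ (2 ^ (M - m) : ℤ) ∣ u 1 + 1)).card :
      ℝ) ≤ 2 * 2 ^ m * 2 ^ M := by
  classical
  set A : Finset ℤ := Finset.Ico (2 * 2 ^ (M - n) : ℤ) ((2 ^ n - 3) * 2 ^ (M - n)) with hA
  set B : Finset ℤ := (Finset.range (2 ^ m)).image (fun k : ℕ => (2 : ℤ) ^ (M - m) * k) ∪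
    (Finset.range (2 ^ m)).image (fun k : ℕ => (2 : ℤ) ^ (M - m) * (k + 1) - 1) with hB
  have hBc : B.card ≤ 2 * 2 ^ m := by
    refine (Finset.card_union_le _ _).trans ?_
    have h1 := Finset.card_image_le (s := Finset.range (2 ^ m))
      (f := fun k : ℕ => (2 : ℤ) ^ (M - m) * k)
    have h2 := Finset.card_image_le (s := Finset.range (2 ^ m))
      (f := fun k : ℕ => (2 : ℤ) ^ (M - m) * (k + 1) - 1)
    rw [Finset.card_range] at h1 h2
    omega
  have hP : (0 : ℤ) < 2 ^ (M - m) := by positivity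
  have hMn : (2 : ℤ) ^ n * 2 ^ (M - n) = 2 ^ M := by rw [← pow_add]; congr 1; omega
  have hMm : (2 : ℤ) ^ m * 2 ^ (M - m) = 2 ^ M := by rw [← pow_add]; congr 1; omega
  have hPn : (0 : ℤ) < 2 ^ (M - n) := by positivity
  have hsub : ((grid n M z).filter (fun u => (2 ^ (M - m) : ℤ) ∣ u 1 ∨
      (2 ^ (M - m) : ℤ) ∣ u 1 + 1)).card ≤ (A ×ˢ B).card := by
    refine Finset.card_le_card_of_injOn (fun u => (u 0, u 1)) ?_ ?_
    · intro u hu
      rw [Finset.mem_coe, Finset.mem_filter] at hu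
      obtain ⟨hu, hd⟩ := hu
      have h0 := (mem_grid.1 hu).2 0 (by decide)
      have h1 := (mem_grid.1 hu).2 1 (by decide)
      rw [Finset.mem_coe, Finset.mem_product]
      refine ⟨Finset.mem_Ico.2 h0, ?_⟩
      have hu0 : 0 ≤ u 1 := le_trans (by positivity) h1.1
      have hu1 : u 1 + 1 ≤ 2 ^ M := by nlinarith [h1.2]
      rw [hB, Finset.mem_union, Finset.mem_image, Finset.mem_image]
      rcases hd with ⟨k, hk⟩ | ⟨k, hk⟩
      · left
        have hk0 : 0 ≤ k := by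
          by_contra hneg
          push Not at hneg
          nlinarith
        lift k to ℕ using hk0
        refine ⟨k, Finset.mem_range.2 ?_, hk.symm⟩
        have : (k : ℤ) < 2 ^ m := by
          by_contra hneg
          push Not at hneg
          nlinarith
        exact_mod_cast this
      · right
        have hk0 : 0 ≤ k - 1 := by
          by_contra hneg
          push Not at hneg
          nlinarith
        obtain ⟨j, hj⟩ := Int.eq_ofNat_of_zero_le hk0
        have hkj : k = j + 1 := by omega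
        subst hkj
        refine ⟨j, Finset.mem_range.2 ?_, by linarith⟩
        have : (j : ℤ) < 2 ^ m := by
          by_contra hneg
          push Not at hneg
          nlinarith
        exact_mod_cast this
    · intro u hu w hw huw
      rw [Finset.mem_coe, Finset.mem_filter] at hu hw
      simp only [Prod.mk.injEq] at huw
      funext i
      fin_cases i
      · exact huw.1
      · exact huw.2
      · exact (mem_grid.1 hu.1).1.trans (mem_grid.1 hw.1).1.symm
  rw [Finset.card_product] at hsub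
  have hAc := card_Ico_le n M (hm.trans hM)
  calc _ ≤ ((A.card * B.card : ℕ) : ℝ) := by exact_mod_cast hsub
    _ = (A.card : ℝ) * B.card := by push_cast; ring
    _ ≤ 2 ^ M * (2 * 2 ^ m) := by
        refine mul_le_mul hAc ?_ (by positivity) (by positivity)
        exact_mod_cast hBc
    _ = _ := by ring

/-! ### The integral over the middle plane -/

theorem lintegral_biUnion_le {ι : Type*} (s : Finset ι) (t : ι → Set V) (H : V → ℝ≥0∞) :
    ∫⁻ x in ⋃ u ∈ s, t u, H x ≤ ∑ u ∈ s, ∫⁻ x in t u, H x := by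
  have e : ⋃ u ∈ s, t u = ⋃ u : s, t u := by
    rw [iUnion_subtype]
  rw [e]
  refine (lintegral_iUnion_le _ _).trans ?_
  rw [tsum_fintype, Finset.sum_coe_sort s (fun u => ∫⁻ x in t u, H x)]

/-- (1) **the integral over the core as a sum over the squares of the middle plane** -/
theorem mid_sum (v : V) (n M : ℕ) (z : ℤ) (hn : 3 ≤ n) (hM : n ≤ M) (H : V → ℝ≥0∞)
    (hH : Measurable H) :
    ∫⁻ x in core v n, H (Function.update x 2 (mid v n z)) ≤
      ENNReal.ofReal (2 ^ M) * ∑ u ∈ grid n M z,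
        ∫⁻ x in cube (AB.P86.sc v ((M, u), 2)) (1 / 2 / 2 ^ M),
          H (Function.update x 2 (mid v n z)) := by
  have h0 : (0:ℝ) < 2 ^ n := by positivity
  have h8 : (8:ℝ) ≤ 2 ^ n := by
    calc (8 : ℝ) = 2 ^ 3 := by norm_num
      _ ≤ 2 ^ n := pow_le_pow_right₀ (by norm_num) hn
  have h8' : (8:ℤ) ≤ 2 ^ n := by exact_mod_cast h8
  set r : ℝ := (1 - 5 / 2 ^ n) / 2 with hr
  set c : V := fun i => v i + (2 ^ n - 1) / 2 / 2 ^ n with hc
  have e1 : ∀ i, c i - r = v i + 2 / 2 ^ n := by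
    intro i; simp only [hc, hr]; field_simp; ring
  have e2 : ∀ i, c i + r = v i + (2 ^ n - 3) / 2 ^ n := by
    intro i; simp only [hc, hr]; field_simp; ring
  have hcore : core v n = cube c r := by
    ext x
    simp only [core, cube, mem_ofPred_eq, abs_le]
    refine forall_congr' fun i => ?_
    rw [← e1, ← e2]
    constructor
    · rintro ⟨a, b⟩; constructor <;> linarith
    · rintro ⟨a, b⟩; constructor <;> linarith
  have hr0 : 0 < r := by
    have : (5:ℝ) / 2 ^ n < 1 := by rw [div_lt_one h0]; linarith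
    rw [hr]; linarith
  have hr1 : r ≤ 1 / 2 := by
    have : (0:ℝ) ≤ 5 / 2 ^ n := by positivity
    rw [hr]; linarith
  set σ : ℝ := 1 / 2 / 2 ^ M with hσ
  have hσ0 : 0 < σ := by positivity
  set a : (Fin 3 → ℤ) → V := fun u => AB.P86.sc v ((M, u), 2) with ha
  have hcov : cube c r ⊆ ⋃ u ∈ grid n M z,
      (cube c r ∩ {x | ∀ l, l ≠ 2 → |x l - a u l| ≤ σ}) := by
    intro x hx
    have hx' : x ∈ core v n := hcore ▸ hx
    have key : ∀ i : Fin 3, ∃ u : ℤ, 2 * 2 ^ (M - n) ≤ u ∧ u < (2 ^ n - 3) * 2 ^ (M - n) ∧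
        (u : ℝ) ≤ (x i - v i) * 2 ^ M ∧ (x i - v i) * 2 ^ M ≤ u + 1 := by
      intro i
      obtain ⟨h1, h2⟩ := hx' i
      have hP : (0 : ℤ) < 2 ^ (M - n) := by positivity
      refine exists_int_between (by nlinarith) ?_ ?_
      · have h3 : (2:ℝ) / 2 ^ n ≤ x i - v i := by linarith
        have h4 := mul_le_mul_of_nonneg_right h3 (show (0:ℝ) ≤ 2 ^ M by positivity)
        refine le_trans (le_of_eq ?_) h4
        rw [two_pow_split hM]
        push_cast
        field_simp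
      · have h3 : x i - v i ≤ ((2:ℝ) ^ n - 3) / 2 ^ n := by linarith
        have h4 := mul_le_mul_of_nonneg_right h3 (show (0:ℝ) ≤ 2 ^ M by positivity)
        refine le_trans h4 (le_of_eq ?_)
        rw [two_pow_split hM]
        push_cast
        field_simp
    choose w hw1 hw2 hw3 hw4 using key
    refine mem_iUnion₂.2 ⟨fun i => if i = 2 then (2 * z + 1) * 2 ^ (M - (n + 1)) else w i,
      mem_grid.2 ⟨by simp, fun i hi => by simp only [if_neg hi]; exact ⟨hw1 i, hw2 i⟩⟩, hx, ?_⟩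
    intro l hl
    simp only [ha]
    rw [sc_ne v M _ hl]
    simp only [if_neg hl]
    have hM0 : (0:ℝ) < 2 ^ M := by positivity
    have h5 : (w l : ℝ) / 2 ^ M ≤ x l - v l := by rw [div_le_iff₀ hM0]; exact hw3 l
    have h6 : x l - v l ≤ ((w l : ℝ) + 1) / 2 ^ M := by rw [le_div_iff₀ hM0]; exact hw4 l
    have e3 : ((w l : ℝ) + 1 / 2) / 2 ^ M = w l / 2 ^ M + σ := by rw [hσ]; ring
    have e4 : ((w l : ℝ) + 1) / 2 ^ M = w l / 2 ^ M + 2 * σ := by rw [hσ]; ring
    rw [abs_le, e3]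
    rw [e4] at h6
    constructor <;> linarith
  have hfit : ∀ u ∈ grid n M z, ∀ l, l ≠ 2 → |a u l - c l| + σ ≤ r := by
    intro u hu l hl
    obtain ⟨h5, h6⟩ := (mem_grid.1 hu).2 l hl
    have h7 := div_lo hM h5
    have h8 := div_hi hM h6
    have e3 : a u l = v l + u l / 2 ^ M + σ := by
      simp only [ha]; rw [sc_ne v M _ hl, hσ]; ring
    have e4 : ((u l : ℝ) + 1) / 2 ^ M = u l / 2 ^ M + 2 * σ := by rw [hσ]; ring
    rw [e4] at h8
    have h9 := e1 l
    have h10 := e2 l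
    rw [← le_sub_iff_add_le, abs_le, e3]
    constructor <;> linarith
  rw [hcore]
  calc ∫⁻ x in cube c r, H (Function.update x 2 (mid v n z))
      ≤ ∫⁻ x in ⋃ u ∈ grid n M z, (cube c r ∩ {x | ∀ l, l ≠ 2 → |x l - a u l| ≤ σ}),
          H (Function.update x 2 (mid v n z)) := lintegral_mono_set hcov
    _ ≤ ∑ u ∈ grid n M z, ∫⁻ x in cube c r ∩ {x | ∀ l, l ≠ 2 → |x l - a u l| ≤ σ},
          H (Function.update x 2 (mid v n z)) := lintegral_biUnion_le _ _ _
    _ = ∑ u ∈ grid n M z, ENNReal.ofReal (r / σ) * ∫⁻ x in cube (a u) σ,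
          H (Function.update x 2 (mid v n z)) :=
        Finset.sum_congr rfl fun u hu =>
          SQ.specLayer c (a u) r σ 2 (mid v n z) H hr0 hσ0 hH (hfit u hu)
    _ = ENNReal.ofReal (r / σ) * ∑ u ∈ grid n M z, ∫⁻ x in cube (a u) σ,
          H (Function.update x 2 (mid v n z)) := by rw [Finset.mul_sum]
    _ ≤ _ := by
        refine mul_le_mul' (ENNReal.ofReal_le_ofReal ?_) le_rfl
        rw [hσ, div_le_iff₀ (by positivity)]
        calc r ≤ 1 / 2 := hr1
          _ = _ := by field_simp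

end Vale.Agent.P073.LOC560.Mid
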