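import Vale.Agent.P073.LOC.Spec752
import Vale.Agent.P073.PK.Sob560b
import Vale.Agent.P073.PK.Planes

/-!
# P073, block LOC: energies at a generic origin

If the weak derivative `F` of `f : Q1 → Λ` is close to `L` in `L^p(Q1)`, then for a generic origin
`v` the energy of `F - L` on all dyadic edges and planes of the generations `l ≤ m`, and on the
edges of the Whitney tiling, is as small as we want.
-/

namespace Vale.Agent.P073.LOC560

open MeasureTheory Set Filter Topology Metric Vale.Agent.P073.St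
open Vale.Agent.P073.SQ (ev cube)
open Vale.Agent.P073.AB (cl Idx pt edge eInt tiles EdgeOf RatGood)
open Vale.Agent.P073.HB (obox edgeSum vx aemeasurable_edgeSum exists_good_point
  measurableSet_obox volume_obox)
open Vale.Agent.P073.PK
open Vale.Agent.P073.LOC
open scoped ContDiff ENNReal

/-! ### The unit cube -/

theorem isOpen_Q1 : IsOpen Q1 := by
  have : Q1 = ⋂ i : Fin 3, {x : V | 0 < x i ∧ x i < 1} := by
    ext x; simp [Q1]
  rw [this]
  refine isOpen_iInter_of_finite fun i => ?_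
  exact (isOpen_lt continuous_const (continuous_apply i)).inter
    (isOpen_lt (continuous_apply i) continuous_const)

theorem Q1_subset_obox : Q1 ⊆ obox 3 1 := fun _ hx i => ⟨(hx i).1.le, (hx i).2⟩

theorem volume_Q1_ne_top : volume Q1 ≠ ⊤ := by
  refine ne_top_of_le_ne_top ?_ (measure_mono Q1_subset_obox)
  rw [volume_obox]
  finiteness

theorem isBounded_Q1 : Bornology.IsBounded Q1 := by
  refine (Metric.isBounded_closedBall (x := (0 : V)) (r := 1)).subset fun x hx => ?_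
  rw [mem_closedBall_zero_iff, pi_norm_le_iff_of_nonneg zero_le_one]
  intro i
  rw [Real.norm_eq_abs, abs_le]
  have := hx i
  constructor <;> linarith [this.1, this.2]

/-! ### The density -/

/-- the distance of the derivative to `L` -/
noncomputable def dv (p : ℝ) (L : V →L[ℝ] V) (F : V → Mat) (x : V) : ℝ≥0∞ :=
  Q1.indicator (fun x => ∑ j, ENNReal.ofReal (‖cl (F x) (ev j) - L (ev j)‖ ^ p)) x

variable {p : ℝ} {L : V →L[ℝ] V} {Λ : Set V} {f : V → V} {F : V → Mat}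

theorem aemeasurable_term (h : IsSobolev p Q1 f F) (j : Fin 3) :
    AEMeasurable (fun x => ENNReal.ofReal (‖cl (F x) (ev j) - L (ev j)‖ ^ p))
      (volume.restrict Q1) := by
  have h1 : AEStronglyMeasurable (fun x => cl (F x) (ev j)) (volume.restrict Q1) :=
    (ContinuousLinearMap.apply ℝ V (ev j)).continuous.comp_aestronglyMeasurable (IsSob.aesm h)
  exact ((h1.sub aestronglyMeasurable_const).norm.aemeasurable.pow_const p).ennreal_ofReal

theorem aemeasurable_dv (h : IsSobolev p Q1 f F) : AEMeasurable (dv p L F) := by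
  have e : dv p L F = Q1.indicator
      (fun x => ∑ j, ENNReal.ofReal (‖cl (F x) (ev j) - L (ev j)‖ ^ p)) := rfl
  rw [e, aemeasurable_indicator_iff isOpen_Q1.measurableSet]
  exact Finset.aemeasurable_fun_sum _ fun j _ => aemeasurable_term h j

theorem lintegral_dv (h : IsSobolev p Q1 f F) : ∫⁻ x, dv p L F x =
    ∑ j, ∫⁻ x in Q1, ENNReal.ofReal (‖cl (F x) (ev j) - L (ev j)‖ ^ p) := by
  have e : dv p L F = Q1.indicator
      (fun x => ∑ j, ENNReal.ofReal (‖cl (F x) (ev j) - L (ev j)‖ ^ p)) := rfl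
  rw [e, lintegral_indicator isOpen_Q1.measurableSet,
    lintegral_finsetSum' _ fun j _ => aemeasurable_term h j]

theorem lintegral_dv_le {κ : ℝ} (h : Near p κ L Λ f F) :
    ∫⁻ x, dv p L F x ≤ ENNReal.ofReal κ := by
  rw [lintegral_dv h.sob]
  exact h.near

theorem le_dv {x : V} (hx : x ∈ Q1) (j : Fin 3) :
    ENNReal.ofReal (‖cl (F x) (ev j) - L (ev j)‖ ^ p) ≤ dv p L F x := by
  rw [dv, indicator_of_mem hx]
  exact Finset.single_le_sum (f := fun j => ENNReal.ofReal (‖cl (F x) (ev j) - L (ev j)‖ ^ p))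
    (fun _ _ => zero_le) (Finset.mem_univ j)

/-! ### The good origin -/

/-- The origin `v` is good for `f`, with error `δ`, for the generations `≤ m`. -/
structure Org (p : ℝ) (δ : ℝ≥0∞) (n m : ℕ) (L : V →L[ℝ] V) (f : V → V) (F : V → Mat) (v : V) :
    Prop where
  org : ∀ i, 0 ≤ v i ∧ v i < 1 / 2 ^ n
  rat : RatGood v Q1 f F
  fin : ∀ e : Idx × Fin 3, edge v e ⊆ Q1 →
    eInt v e (fun x => ENNReal.ofReal (‖cl (F x) (ev e.2)‖ ^ p)) ≠ ⊤
  /-- all the edges of generation `l` -/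
  edges : ∀ l ≤ m, ∑' e : (Fin 3 → ℤ) × Fin 3, eInt v ((l, e.1), e.2) (dv p L F) ≤ δ
  /-- all the planes of generation `l` -/
  planes : ∀ l ≤ m, ∀ i, ∑' z : ℤ, planeInt (dv p L F) i (1 / 2 ^ l) v z ≤ δ
  /-- the edges of the Whitney tiling -/
  tile : ∑' e : {e : Idx × Fin 3 // ∃ q ∈ tiles Q1 n v, EdgeOf e q},
      ENNReal.ofReal ((1 / 2 ^ e.1.1.1) ^ 2) * eInt v e.1 (dv p L F) ≤ δ

theorem eInt_le_one (v : V) (l : ℕ) (e : (Fin 3 → ℤ) × Fin 3) (H : V → ℝ≥0∞) :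
    eInt v ((l, e.1), e.2) H ≤
      ∫⁻ s in Ioc (0 : ℝ) 1, H (vx v (1 / 2 ^ l) e.1 + s • HB.ev (1 / 2 ^ l) e.2) := by
  rw [eInt_eq]
  refine (mul_le_of_le_one_left zero_le ?_)
  rw [ENNReal.ofReal_le_one, div_le_one (by positivity)]
  exact one_le_pow₀ (by norm_num)

theorem tsum_eInt_le (v : V) (l : ℕ) (H : V → ℝ≥0∞) :
    ∑' e : (Fin 3 → ℤ) × Fin 3, eInt v ((l, e.1), e.2) H ≤ edgeSum H v (1 / 2 ^ l) :=
  ENNReal.tsum_le_tsum fun e => eInt_le_one v l e H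

/-- the total energy -/
noncomputable def tot (n m : ℕ) (κ : V → ℝ≥0∞) (v : V) : ℝ≥0∞ :=
  ∑ l ∈ Finset.range (m + 1), (edgeSum κ v (1 / 2 ^ l) +
    ∑ i : Fin 3, ∑' z : ℤ, planeInt κ i (1 / 2 ^ l) v z) + tileSum Q1 n κ v

/-- the constant -/
noncomputable def Kc (m : ℕ) : ℝ≥0∞ :=
  ∑ l ∈ Finset.range (m + 1), (3 * ((2 : ℝ≥0∞) ^ l) ^ 3 + ∑ _i : Fin 3, (2 : ℝ≥0∞) ^ l) + 9

theorem Kc_ne_top (m : ℕ) : Kc m ≠ ⊤ := by
  unfold Kc
  refine ENNReal.add_ne_top.2 ⟨?_, by norm_num⟩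
  refine ENNReal.sum_ne_top.2 fun l _ => ENNReal.add_ne_top.2 ⟨by finiteness, ?_⟩
  exact ENNReal.sum_ne_top.2 fun _ _ => by finiteness

theorem lintegral_edgeSum_eq {κ : V → ℝ≥0∞} (hκ : AEMeasurable κ) (l : ℕ) :
    ∫⁻ o in obox 3 1, edgeSum κ o (1 / 2 ^ l) = 3 * ((2 : ℝ≥0∞) ^ l) ^ 3 * ∫⁻ x, κ x := by
  have h1 := lintegral_edgeSum_scaled hκ l
  rw [lintegral_mul_const'' _ (aemeasurable_edgeSum hκ _).restrict] at h1
  have h2 : ((2 : ℝ≥0∞) ^ l)⁻¹ ^ 3 * ((2 : ℝ≥0∞) ^ l) ^ 3 = 1 := by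
    rw [← mul_pow, ENNReal.inv_mul_cancel (by positivity) (by finiteness), one_pow]
  calc ∫⁻ o in obox 3 1, edgeSum κ o (1 / 2 ^ l)
      = (∫⁻ o in obox 3 1, edgeSum κ o (1 / 2 ^ l)) *
          (((2 : ℝ≥0∞) ^ l)⁻¹ ^ 3 * ((2 : ℝ≥0∞) ^ l) ^ 3) := by rw [h2, mul_one]
    _ = (((3 : ℕ) : ℝ≥0∞) * ∫⁻ x, κ x) * ((2 : ℝ≥0∞) ^ l) ^ 3 := by rw [← h1]; ring
    _ = _ := by push_cast; ring

theorem aemeasurable_planeInt {κ : V → ℝ≥0∞} (hκ : AEMeasurable κ) (i : Fin 3) (h : ℝ) (z : ℤ) :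
    AEMeasurable (fun o : V => planeInt κ i h o z) := by
  have hG : AEMeasurable (fun c => ∫⁻ u, κ (sec i c u)) := by
    have h1 := volume_preserving_piFinSuccAbove (fun _ : Fin 3 => ℝ) i
    have h3 : AEMeasurable (fun q : ℝ × (Fin 2 → ℝ) => κ ((MeasurableEquiv.piFinSuccAbove
        (fun _ : Fin 3 => ℝ) i).symm q)) (volume.prod volume) :=
      hκ.comp_quasiMeasurePreserving (h1.symm _).quasiMeasurePreserving
    exact h3.lintegral_prod_right'
  have hG' : AEMeasurable (fun c : ℝ => ∫⁻ u, κ (sec i (c + h * z) u)) :=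
    hG.comp_quasiMeasurePreserving
      (measurePreserving_add_right volume (h * z)).quasiMeasurePreserving
  have h5 : Measure.QuasiMeasurePreserving (fun o : Fin 3 → ℝ => o i) volume volume :=
    Measure.quasiMeasurePreserving_eval _ i
  exact hG'.comp_quasiMeasurePreserving h5

theorem lintegral_planeInt_two {κ : V → ℝ≥0∞} (hκ : AEMeasurable κ) (i : Fin 3) (l : ℕ) :
    ∫⁻ o in obox 3 1, ∑' z : ℤ, planeInt κ i (1 / 2 ^ l) o z = 2 ^ l * ∫⁻ x, κ x := by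
  have h := lintegral_planeInt (n := 2 ^ l) (by positivity) hκ i
  push_cast at h
  exact h

theorem aemeasurable_tot {κ : V → ℝ≥0∞} (hκ : AEMeasurable κ) (n m : ℕ) :
    AEMeasurable (tot n m κ) := by
  unfold tot
  refine AEMeasurable.add ?_ (aemeasurable_tileSum hκ n)
  refine Finset.aemeasurable_fun_sum _ fun l _ => (aemeasurable_edgeSum hκ _).add ?_
  exact Finset.aemeasurable_fun_sum _ fun i _ =>
    AEMeasurable.tsum fun z => aemeasurable_planeInt hκ i _ z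

theorem lintegral_tot_le {κ : V → ℝ≥0∞} (hκ : AEMeasurable κ) (n m : ℕ) :
    ∫⁻ o in obox 3 1, tot n m κ o ≤ Kc m * ∫⁻ x, κ x := by
  have hp : ∀ l i, AEMeasurable (fun o : V => ∑' z : ℤ, planeInt κ i (1 / 2 ^ l) o z) :=
    fun l i => AEMeasurable.tsum fun z => aemeasurable_planeInt hκ i _ z
  unfold tot Kc
  rw [lintegral_add_right' _ (aemeasurable_tileSum hκ n).restrict, add_mul]
  refine add_le_add ?_ ((lintegral_tileSum_le isOpen_Q1 isBounded_Q1 hκ n).trans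
    (mul_le_mul' le_rfl (setLIntegral_le_lintegral _ _)))
  have hm : ∀ l : ℕ, AEMeasurable (fun a : V => edgeSum κ a (1 / 2 ^ l) +
      ∑ i : Fin 3, ∑' z : ℤ, planeInt κ i (1 / 2 ^ l) a z) (volume.restrict (obox 3 1)) :=
    fun l => ((aemeasurable_edgeSum hκ _).add
      (Finset.aemeasurable_fun_sum _ fun i _ => hp l i)).restrict
  rw [lintegral_finsetSum' _ fun l _ => hm l, Finset.sum_mul]
  refine Finset.sum_le_sum fun l _ => ?_
  rw [lintegral_add_left' (aemeasurable_edgeSum hκ _).restrict, lintegral_edgeSum_eq hκ,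
    add_mul]
  refine add_le_add le_rfl ?_
  rw [lintegral_finsetSum' _ fun i _ => (hp l i).restrict, Finset.sum_mul]
  exact Finset.sum_le_sum fun i _ => (lintegral_planeInt_two hκ i l).le

theorem edges_le_tot {n m l : ℕ} (hl : l ≤ m) (κ : V → ℝ≥0∞) (v : V) :
    edgeSum κ v (1 / 2 ^ l) + ∑ i : Fin 3, ∑' z : ℤ, planeInt κ i (1 / 2 ^ l) v z ≤
      tot n m κ v := by
  unfold tot
  refine le_trans ?_ le_self_add
  exact Finset.single_le_sum (f := fun l => edgeSum κ v (1 / 2 ^ l) +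
    ∑ i : Fin 3, ∑' z : ℤ, planeInt κ i (1 / 2 ^ l) v z) (fun _ _ => zero_le)
    (Finset.mem_range.2 (by omega))

/-- The total energy controls everything. -/
theorem Org.of_tot {δ : ℝ≥0∞} {n m : ℕ} {v : V} (hv : ∀ i, 0 ≤ v i ∧ v i < 1 / 2 ^ n)
    (hr : RatGood v Q1 f F) (hf : ∀ e : Idx × Fin 3, edge v e ⊆ Q1 →
      eInt v e (fun x => ENNReal.ofReal (‖cl (F x) (ev e.2)‖ ^ p)) ≠ ⊤)
    (htot : tot n m (dv p L F) v ≤ δ) : Org p δ n m L f F v := by
  refine ⟨hv, hr, hf, fun l hl => ?_, fun l hl i => ?_, ?_⟩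
  · refine (tsum_eInt_le v l _).trans (le_trans ?_ htot)
    exact le_self_add.trans (edges_le_tot hl _ v)
  · refine le_trans ?_ htot
    refine le_trans ?_ (edges_le_tot hl _ v)
    refine le_trans ?_ le_add_self
    exact Finset.single_le_sum (f := fun i : Fin 3 => ∑' z : ℤ, planeInt (dv p L F) i (1 / 2 ^ l) v z)
      (fun _ _ => zero_le) (Finset.mem_univ i)
  · refine (tsum_tiles_le isOpen_Q1 isBounded_Q1 n _ v).trans (le_trans ?_ htot)
    unfold tot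
    exact le_add_self

/-- **The good origin.** `Ψ` is an additional functional, `P` an additional property. -/
theorem exists_org (hp : 1 ≤ p) (L : V →L[ℝ] V) (n m : ℕ) {δ : ℝ≥0∞} (hδ : δ ≠ 0) :
    ∃ κ > 0, ∀ (Λ : Set V) (f : V → V) (F : V → Mat), Near p κ L Λ f F →
      ∀ (Ψ : V → ℝ≥0∞) (P : V → Prop), AEMeasurable Ψ → (∀ᵐ v : V, P v) →
      ∃ v, Org p δ n m L f F v ∧ P v ∧
        Ψ v ≤ 2 * ((2 : ℝ≥0∞) ^ n) ^ 3 * ∫⁻ o in obox 3 1, Ψ o := by
  obtain ⟨κ, hκ, hκδ⟩ : ∃ κ : ℝ, 0 < κ ∧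
      2 * ((2 : ℝ≥0∞) ^ n) ^ 3 * (Kc m * ENNReal.ofReal κ) ≤ δ := by
    by_cases hδt : δ = ⊤
    · exact ⟨1, one_pos, by rw [hδt]; exact le_top⟩
    set A : ℝ≥0∞ := 2 * ((2 : ℝ≥0∞) ^ n) ^ 3 * Kc m with hA
    have hAt : A ≠ ⊤ := ENNReal.mul_ne_top (by finiteness) (Kc_ne_top m)
    have hδ0 : 0 < δ.toReal := ENNReal.toReal_pos hδ hδt
    refine ⟨δ.toReal / (A.toReal + 1), by positivity, ?_⟩
    rw [← mul_assoc]
    calc A * ENNReal.ofReal (δ.toReal / (A.toReal + 1))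
        = ENNReal.ofReal A.toReal * ENNReal.ofReal (δ.toReal / (A.toReal + 1)) := by
          rw [ENNReal.ofReal_toReal hAt]
      _ = ENNReal.ofReal (A.toReal * (δ.toReal / (A.toReal + 1))) := by
          rw [ENNReal.ofReal_mul ENNReal.toReal_nonneg]
      _ ≤ ENNReal.ofReal δ.toReal := by
          refine ENNReal.ofReal_le_ofReal ?_
          have hA0 : 0 ≤ A.toReal := ENNReal.toReal_nonneg
          rw [mul_div_assoc', div_le_iff₀ (by positivity)]
          nlinarith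
      _ = δ := ENNReal.ofReal_toReal hδt
  refine ⟨κ, hκ, fun Λ f F hN Ψ P hΨ hP => ?_⟩
  have hdv : AEMeasurable (dv p L F) := aemeasurable_dv hN.sob
  have hc : ContinuousOn f Q1 := hN.cont.mono subset_closure
  have h1 := ae_ratGood hp isOpen_Q1 volume_Q1_ne_top hc hN.sob
  have h2 := ae_fin hp isOpen_Q1.measurableSet hN.sob
  have hb0 : volume (obox 3 (1 / 2 ^ n : ℝ)) ≠ 0 := by
    rw [volume_obox]
    exact pow_ne_zero _ (ENNReal.ofReal_pos.2 (by positivity)).ne'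
  have hbt : volume (obox 3 (1 / 2 ^ n : ℝ)) ≠ ⊤ := by
    rw [volume_obox]
    finiteness
  have hsub : obox 3 (1 / 2 ^ n : ℝ) ⊆ obox 3 1 := by
    intro x hx i
    refine ⟨(hx i).1, (hx i).2.trans_le ?_⟩
    rw [div_le_one (by positivity)]
    exact one_le_pow₀ (by norm_num)
  have hvol : (volume (obox 3 (1 / 2 ^ n : ℝ)))⁻¹ = ((2 : ℝ≥0∞) ^ n) ^ 3 := by
    rw [volume_obox, one_div, ENNReal.ofReal_inv_of_pos (by positivity),
      ENNReal.ofReal_pow (by norm_num), ENNReal.ofReal_ofNat, ← ENNReal.inv_pow, inv_inv]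
  obtain ⟨v, hv, ⟨hPv, hr, hf⟩, hJ⟩ := exists_good_point (ν := (volume : Measure V))
    (B := obox 3 (1 / 2 ^ n : ℝ)) hb0 hbt (measurableSet_obox _) (Finset.univ : Finset Bool)
    (fun b => if b then tot n m (dv p L F) else Ψ)
    (by
      rintro (_ | _) -
      · exact hΨ.restrict
      · exact (aemeasurable_tot hdv n m).restrict)
    (P := fun v => P v ∧ RatGood v Q1 f F ∧ ∀ e : Idx × Fin 3, edge v e ⊆ Q1 →
      eInt v e (fun x => ENNReal.ofReal (‖cl (F x) (SQ.ev e.2)‖ ^ p)) ≠ ⊤)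
    (by
      filter_upwards [h1, h2, hP] with v hv1 hv2 hv3 _
      exact ⟨hv3, hv1, hv2⟩)
  -- from the small box to the unit box
  have key : ∀ Φ : V → ℝ≥0∞, Φ v * volume (obox 3 (1 / 2 ^ n : ℝ)) ≤
      ((Finset.univ : Finset Bool).card : ℝ≥0∞) * ∫⁻ y in obox 3 (1 / 2 ^ n : ℝ), Φ y →
      Φ v ≤ 2 * ((2 : ℝ≥0∞) ^ n) ^ 3 * ∫⁻ o in obox 3 1, Φ o := by
    intro Φ hΦ
    rw [Finset.card_univ, Fintype.card_bool] at hΦ
    have h3 : Φ v ≤ ((2 : ℕ) : ℝ≥0∞) * (∫⁻ y in obox 3 (1 / 2 ^ n : ℝ), Φ y) /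
        volume (obox 3 (1 / 2 ^ n : ℝ)) := (ENNReal.le_div_iff_mul_le (Or.inl hb0) (Or.inl hbt)).2 hΦ
    refine h3.trans ?_
    rw [div_eq_mul_inv, hvol]
    calc ((2 : ℕ) : ℝ≥0∞) * (∫⁻ y in obox 3 (1 / 2 ^ n : ℝ), Φ y) * ((2 : ℝ≥0∞) ^ n) ^ 3
        ≤ 2 * (∫⁻ y in obox 3 1, Φ y) * ((2 : ℝ≥0∞) ^ n) ^ 3 := by
          push_cast
          gcongr
      _ = _ := by ring
  have hΨv : Ψ v ≤ 2 * ((2 : ℝ≥0∞) ^ n) ^ 3 * ∫⁻ o in obox 3 1, Ψ o :=
    key Ψ (by simpa using hJ false (Finset.mem_univ _))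
  have htot : tot n m (dv p L F) v ≤ δ := by
    refine (key _ (by simpa using hJ true (Finset.mem_univ _))).trans ?_
    refine le_trans ?_ hκδ
    gcongr
    refine (lintegral_tot_le hdv n m).trans ?_
    gcongr
    exact lintegral_dv_le hN
  exact ⟨v, Org.of_tot hv hr hf htot, hPv, hΨv⟩

end Vale.Agent.P073.LOC560
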