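import Vale.Agent.P073.LOC560.Org
import Vale.Agent.P073.PK.Bridge

/-!
# P073, block LOC: the energies at a good origin, in the form of `Sec`
-/

namespace Vale.Agent.P073.LOC560

open MeasureTheory Set Filter Topology Metric Vale.Agent.P073.St
open Vale.Agent.P073.SQ (ev cube)
open Vale.Agent.P073.AB (cl Idx pt edge eInt tiles EdgeOf RatGood)
open Vale.Agent.P073.HB (obox edgeSum vx)
open Vale.Agent.P073.PK
open Vale.Agent.P073.LOC
open P073.Net (IsTile dyc dyo SizeFn)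
open scoped ContDiff ENNReal

/-! ### The core -/

theorem core_eq (v : V) (n : ℕ) : core v n =
    Icc (fun i => v i + 2 / 2 ^ n) (fun i => v i + (2 ^ n - 3) / 2 ^ n) := by
  ext x
  simp only [core, mem_ofPred_eq, mem_Icc, Pi.le_def]
  exact ⟨fun h => ⟨fun i => (h i).1, fun i => (h i).2⟩, fun h i => ⟨h.1 i, h.2 i⟩⟩

theorem measurableSet_core (v : V) (n : ℕ) : MeasurableSet (core v n) := by
  rw [core_eq]
  exact measurableSet_Icc

theorem core_subset {v : V} {n : ℕ} (hv : ∀ i, 0 ≤ v i ∧ v i < 1 / 2 ^ n) : core v n ⊆ Q1 := by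
  intro x hx i
  have h1 := hx i
  have h2 := hv i
  have h3 : (0 : ℝ) < 2 ^ n := by positivity
  have h4 : (0 : ℝ) < 2 / 2 ^ n := by positivity
  have h5 : ((2 : ℝ) ^ n - 3) / 2 ^ n = 1 - 3 * (1 / 2 ^ n) := by field_simp
  have h6 : (0 : ℝ) < 1 / 2 ^ n := by positivity
  constructor
  · linarith [h1.1, h2.1]
  · rw [h5] at h1
    linarith [h1.2, h2.2]

theorem eight_le {n : ℕ} (hn : 3 ≤ n) : (8 : ℝ) ≤ 2 ^ n := by
  calc (8 : ℝ) = 2 ^ 3 := by norm_num
    _ ≤ 2 ^ n := pow_le_pow_right₀ (by norm_num) hn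

theorem volume_core {v : V} {n : ℕ} :
    volume (core v n) = ENNReal.ofReal (1 - 5 / 2 ^ n) ^ 3 := by
  rw [core_eq, Real.volume_Icc_pi]
  have h : ∀ i : Fin 3, ENNReal.ofReal (v i + ((2:ℝ) ^ n - 3) / 2 ^ n - (v i + 2 / 2 ^ n)) =
      ENNReal.ofReal (1 - 5 / 2 ^ n) := by
    intro i
    congr 1
    field_simp
    ring
  simp only [h]
  rw [Finset.prod_const, Finset.card_univ, Fintype.card_fin]

theorem volume_Q1_le : volume Q1 ≤ 1 := by
  refine (measure_mono Q1_subset_obox).trans ?_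
  rw [HB.volume_obox]
  simp

theorem volume_diff_core_le {v : V} {n : ℕ} (hn : 3 ≤ n)
    (hv : ∀ i, 0 ≤ v i ∧ v i < 1 / 2 ^ n) :
    volume (Q1 \ core v n) ≤ ENNReal.ofReal (15 / 2 ^ n) := by
  have h8 := eight_le hn
  have h1 : volume (core v n) ≠ ⊤ := by
    rw [volume_core]; finiteness
  rw [measure_sdiff (core_subset hv) (measurableSet_core v n).nullMeasurableSet h1, volume_core]
  have h2 : (0 : ℝ) ≤ 1 - 5 / 2 ^ n := by
    rw [sub_nonneg, div_le_one (by positivity)]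
    linarith
  rw [← ENNReal.ofReal_pow h2]
  refine (tsub_le_tsub_right volume_Q1_le _).trans ?_
  rw [← ENNReal.ofReal_one, ← ENNReal.ofReal_sub _ (by positivity)]
  refine ENNReal.ofReal_le_ofReal ?_
  set t : ℝ := 1 / 2 ^ n with ht
  have e1 : (5 : ℝ) / 2 ^ n = 5 * t := by rw [ht]; ring
  have e2 : (15 : ℝ) / 2 ^ n = 15 * t := by rw [ht]; ring
  have ht0 : 0 ≤ t := by positivity
  have ht1 : 8 * t ≤ 1 := by
    rw [ht, mul_one_div, div_le_one (by positivity)]
    exact h8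
  rw [e1, e2]
  nlinarith [mul_nonneg ht0 ht0, mul_nonneg (mul_nonneg ht0 ht0) ht0,
    mul_nonneg (mul_nonneg ht0 ht0) (sub_nonneg.2 ht1)]

/-- a point of the core lies in a cube of generation `n` contained in the core -/
theorem exists_core_cube {v : V} {n : ℕ} (hn : 3 ≤ n) {x : V} (hx : x ∈ core v n) :
    ∃ z : Fin 3 → ℤ, x ∈ dyc v n z ∧ dyc v n z ⊆ core v n := by
  have h2n : (0 : ℝ) < 2 ^ n := by positivity
  have h8 := eight_le hn
  have h8' : (8 : ℤ) ≤ 2 ^ n := by exact_mod_cast h8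
  refine ⟨fun i => min ⌊(x i - v i) * 2 ^ n⌋ (2 ^ n - 4), fun i => ?_, fun y hy i => ?_⟩
  · have h1 := hx i
    have e1 : v i + (2 ^ n - 3) / 2 ^ n - v i = ((2:ℝ) ^ n - 3) / 2 ^ n := by ring
    have h3 : (x i - v i) * 2 ^ n ≤ 2 ^ n - 3 := by
      have : x i - v i ≤ ((2:ℝ) ^ n - 3) / 2 ^ n := by linarith [h1.2]
      rwa [le_div_iff₀ h2n] at this
    have h4 : x i = v i + (x i - v i) * 2 ^ n / 2 ^ n := by
      rw [mul_div_assoc, div_self h2n.ne', mul_one]; ring
    have h5 : ((min ⌊(x i - v i) * 2 ^ n⌋ (2 ^ n - 4) : ℤ) : ℝ) ≤ (x i - v i) * 2 ^ n := by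
      refine le_trans ?_ (Int.floor_le _)
      exact_mod_cast min_le_left _ _
    have h6 : (x i - v i) * 2 ^ n ≤ ((min ⌊(x i - v i) * 2 ^ n⌋ (2 ^ n - 4) : ℤ) : ℝ) + 1 := by
      rcases le_total ⌊(x i - v i) * 2 ^ n⌋ (2 ^ n - 4 : ℤ) with h | h
      · rw [min_eq_left h]
        exact (Int.lt_floor_add_one _).le
      · rw [min_eq_right h]
        push_cast
        linarith
    constructor
    · rw [h4]
      have := (div_le_div_iff_of_pos_right h2n).2 h5
      linarith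
    · rw [h4]
      have := (div_le_div_iff_of_pos_right h2n).2 h6
      linarith
  · have h1 := hx i
    have h7 := hy i
    have h2' : (2:ℝ) ≤ (x i - v i) * 2 ^ n := by
      have : (2:ℝ) / 2 ^ n ≤ x i - v i := by linarith [h1.1]
      rwa [div_le_iff₀ h2n] at this
    have h8 : (2 : ℤ) ≤ min ⌊(x i - v i) * 2 ^ n⌋ (2 ^ n - 4) := by
      refine le_min ?_ (by omega)
      rw [Int.le_floor]
      exact_mod_cast h2'
    have h9 : (min ⌊(x i - v i) * 2 ^ n⌋ (2 ^ n - 4) : ℤ) ≤ 2 ^ n - 4 := min_le_right _ _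
    have h10 : (2 : ℝ) ≤ ((min ⌊(x i - v i) * 2 ^ n⌋ (2 ^ n - 4) : ℤ) : ℝ) := by exact_mod_cast h8
    have h11 : ((min ⌊(x i - v i) * 2 ^ n⌋ (2 ^ n - 4) : ℤ) : ℝ) ≤ 2 ^ n - 4 := by exact_mod_cast h9
    constructor
    · have := (div_le_div_iff_of_pos_right h2n).2 h10
      linarith [h7.1]
    · have : (((min ⌊(x i - v i) * 2 ^ n⌋ (2 ^ n - 4) : ℤ) : ℝ) + 1) / 2 ^ n ≤
          ((2:ℝ) ^ n - 3) / 2 ^ n := (div_le_div_iff_of_pos_right h2n).2 (by linarith)
      linarith [h7.2]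

/-! ### Counting the edges outside of the core -/

theorem volume_dyo (v : V) (q : Idx) :
    volume (dyo v q.1 q.2) = ENNReal.ofReal (1 / 2 ^ q.1) ^ 3 := by
  have e : dyo v q.1 q.2 = Set.pi univ fun i => Ioo (v i + q.2 i / 2 ^ q.1)
      (v i + (q.2 i + 1) / 2 ^ q.1) := by
    ext x
    simp [dyo, Set.mem_pi]
  rw [e, Real.volume_pi_Ioo]
  have h : ∀ i : Fin 3, ENNReal.ofReal (v i + ((q.2 i : ℝ) + 1) / 2 ^ q.1 -
      (v i + q.2 i / 2 ^ q.1)) = ENNReal.ofReal (1 / 2 ^ q.1) := by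
    intro i
    congr 1
    ring
  simp only [h]
  rw [Finset.prod_const, Finset.card_univ, Fintype.card_fin]

theorem isOpen_dyo' (v : V) (q : Idx) : IsOpen (dyo v q.1 q.2) := by
  have : dyo v q.1 q.2 = ⋂ k : Fin 3, {x : V | v k + q.2 k / 2 ^ q.1 < x k ∧
      x k < v k + (q.2 k + 1) / 2 ^ q.1} := by
    ext x; simp [dyo]
  rw [this]
  refine isOpen_iInter_of_finite fun i => ?_
  exact (isOpen_lt continuous_const (continuous_apply i)).inter
    (isOpen_lt (continuous_apply i) continuous_const)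

theorem dyo_subset_dyc (v : V) (m : ℕ) (z : Fin 3 → ℤ) : dyo v m z ⊆ dyc v m z :=
  fun _ hx k => ⟨(hx k).1.le, (hx k).2.le⟩

theorem tile_gen {Ω : Set V} {n : ℕ} {v : V} {q : Idx} (hq : q ∈ tiles Ω n v) : n ≤ q.1 := by
  have h1 : IsTile (AB.rho Ω n) v q.1 q.2 := hq
  have h2 : pt v q.1 q.2 ∈ dyc v q.1 q.2 := by
    intro k
    refine ⟨le_rfl, ?_⟩
    simp only [pt]
    have : (q.2 k : ℝ) / 2 ^ q.1 ≤ (q.2 k + 1) / 2 ^ q.1 :=
      (div_le_div_iff_of_pos_right (by positivity)).2 (by linarith)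
    linarith
  have h3 := (h1.1 _ h2).trans (min_le_left _ _)
  rw [div_le_div_iff₀ (by positivity) (by positivity), one_mul, one_mul] at h3
  exact (pow_le_pow_iff_right₀ (by norm_num : (1:ℝ) < 2)).1 h3

/-- a tile which is not contained in the core has its interior outside of the core -/
theorem dyo_disjoint_core {v : V} {n : ℕ} (hn : 3 ≤ n) {q : Idx} (hq : q ∈ tiles Q1 n v)
    (hc : ¬ dyc v q.1 q.2 ⊆ core v n) : dyo v q.1 q.2 ⊆ Q1 \ core v n := by
  intro x hx
  have hsz := sizeFn_rho isOpen_Q1 isBounded_Q1 n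
  have h1 : IsTile (AB.rho Q1 n) v q.1 q.2 := hq
  refine ⟨?_, fun hxc => hc ?_⟩
  · by_contra hn'
    have h2 := h1.1 x (dyo_subset_dyc _ _ _ hx)
    have h3 := hsz.off x hn'
    have : (0:ℝ) < 1 / 2 ^ q.1 := by positivity
    linarith
  · obtain ⟨z, hz, hzc⟩ := exists_core_cube hn hxc
    exact (P073.Net.NC.dyc_sub (P073.Net.NC.fine_sub' (tile_gen hq) hx hz)).trans hzc

/-- the volumes of the tiles which are not contained in the core -/
theorem tsum_tiles_out_le {v : V} {n : ℕ} (hn : 3 ≤ n) (hv : ∀ i, 0 ≤ v i ∧ v i < 1 / 2 ^ n) :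
    ∑' q : {q : Idx // q ∈ tiles Q1 n v ∧ ¬ dyc v q.1 q.2 ⊆ core v n},
      ENNReal.ofReal (1 / 2 ^ q.1.1) ^ 3 ≤ ENNReal.ofReal (15 / 2 ^ n) := by
  simp only [← volume_dyo v]
  rw [← measure_iUnion]
  · refine (measure_mono ?_).trans (volume_diff_core_le hn hv)
    exact iUnion_subset fun q => dyo_disjoint_core hn q.2.1 q.2.2
  · intro q q' hne
    have h1 : IsTile (AB.rho Q1 n) v q.1.1 q.1.2 := q.2.1
    have h2 : IsTile (AB.rho Q1 n) v q'.1.1 q'.1.2 := q'.2.1
    refine (P073.Net.NC.disj h1 h2 fun h => hne ?_).mono_right (dyo_subset_dyc _ _ _)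
    exact Subtype.ext h
  · exact fun q => (isOpen_dyo' v q.1).measurableSet

/-- the edges of the tiles which are not contained in the core -/
abbrev OutE (n : ℕ) (v : V) : Type :=
  {e : Idx × Fin 3 // (∃ q ∈ tiles Q1 n v, EdgeOf e q) ∧ ¬ edge v e ⊆ core v n}

/-- weighted number of the edges outside of the core -/
theorem tsum_out_le {v : V} {n : ℕ} (hn : 3 ≤ n) (hv : ∀ i, 0 ≤ v i ∧ v i < 1 / 2 ^ n) :
    ∑' e : OutE n v, ENNReal.ofReal (1 / 2 ^ e.1.1.1) ^ 3 ≤ ENNReal.ofReal (360 / 2 ^ n) := by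
  classical
  have hch : ∀ e : OutE n v, ∃ q : {q : Idx // q ∈ tiles Q1 n v ∧ ¬ dyc v q.1 q.2 ⊆ core v n},
      EdgeOf e.1 q.1 := by
    intro e
    obtain ⟨⟨q, hq, heq⟩, hc⟩ := e.2
    refine ⟨⟨q, hq, fun h => hc ?_⟩, heq⟩
    exact (edge_sub_of_edgeOf heq).trans h
  choose Q hQ using hch
  set g : OutE n v → {q : Idx // q ∈ tiles Q1 n v ∧ ¬ dyc v q.1 q.2 ⊆ core v n} ×
      ((Fin 3 → Bool) × Fin 3) :=
    fun e => (Q e, fun i => decide (e.1.1.2 i = (Q e).1.2 i), e.1.2) with hg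
  have hginj : Function.Injective g := by
    intro e e' h
    simp only [hg, Prod.mk.injEq] at h
    obtain ⟨h1, h2, h3⟩ := h
    have h4 := hQ e
    have h5 := hQ e'
    rw [← h1] at h5
    have h6 : ∀ i, e.1.1.2 i = e'.1.1.2 i := by
      intro i
      have h7 := congrFun h2 i
      rw [← h1] at h7
      by_cases hi : i = e.1.2
      · subst hi
        rw [h4.2.1, h3]
        exact h5.2.1.symm
      · have h8 := h4.2.2 i hi
        have h9 := h5.2.2 i (by rwa [← h3])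
        by_cases hq : e.1.1.2 i = (Q e).1.2 i
        · have : e'.1.1.2 i = (Q e).1.2 i := by
            have h10 : decide (e.1.1.2 i = (Q e).1.2 i) = true := decide_eq_true hq
            rw [h10] at h7
            exact of_decide_eq_true h7.symm
          rw [hq, this]
        · have : ¬ e'.1.1.2 i = (Q e).1.2 i := by
            have h10 : decide (e.1.1.2 i = (Q e).1.2 i) = false := decide_eq_false hq
            rw [h10] at h7
            exact of_decide_eq_false h7.symm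
          rcases h8 with h8 | h8
          · exact absurd h8 hq
          · rcases h9 with h9 | h9
            · exact absurd h9 this
            · rw [h8, h9]
    refine Subtype.ext (Prod.ext (Prod.ext ?_ (funext h6)) h3)
    rw [h4.1, h5.1]
  calc ∑' e : OutE n v, ENNReal.ofReal (1 / 2 ^ e.1.1.1) ^ 3
      = ∑' e : OutE n v, ENNReal.ofReal (1 / 2 ^ (g e).1.1.1) ^ 3 := by
        refine tsum_congr fun e => ?_
        rw [(hQ e).1]
    _ ≤ ∑' q : {q : Idx // q ∈ tiles Q1 n v ∧ ¬ dyc v q.1 q.2 ⊆ core v n} ×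
        ((Fin 3 → Bool) × Fin 3), ENNReal.ofReal (1 / 2 ^ q.1.1.1) ^ 3 :=
      ENNReal.tsum_comp_le_tsum_of_injective hginj
        (fun q => ENNReal.ofReal (1 / 2 ^ q.1.1.1) ^ 3)
    _ = ∑' q : {q : Idx // q ∈ tiles Q1 n v ∧ ¬ dyc v q.1 q.2 ⊆ core v n},
        24 * ENNReal.ofReal (1 / 2 ^ q.1.1) ^ 3 := by
        rw [ENNReal.tsum_prod']
        refine tsum_congr fun q => ?_
        rw [tsum_fintype]
        have hcard : Fintype.card ((Fin 3 → Bool) × Fin 3) = 24 := by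
          simp [Fintype.card_prod]
        calc ∑ _b : (Fin 3 → Bool) × Fin 3, ENNReal.ofReal (1 / 2 ^ q.1.1) ^ 3
            = ((24 : ℕ) : ℝ≥0∞) * ENNReal.ofReal (1 / 2 ^ q.1.1) ^ 3 := by
              rw [Finset.sum_const, Finset.card_univ, hcard, nsmul_eq_mul]
          _ = _ := by push_cast; rfl
    _ ≤ 24 * ENNReal.ofReal (15 / 2 ^ n) := by
        rw [ENNReal.tsum_mul_left]
        exact mul_le_mul' le_rfl (tsum_tiles_out_le hn hv)
    _ = ENNReal.ofReal (360 / 2 ^ n) := by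
        rw [show (24 : ℝ≥0∞) = ENNReal.ofReal 24 by simp, ← ENNReal.ofReal_mul (by norm_num)]
        congr 1
        ring

end Vale.Agent.P073.LOC560
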